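import Crest.Agent.X212.Rdc90.Defs
import Crest.Agent.X212.Cht98.Cov
import Crest.Agent.X212.Ell97.Scale
import Crest.Agent.X212.Rsp69.En

/-!
# Row 212, RD-IPL (helper9): interpolation on windows of the cylinder
-/

set_option autoImplicit false
set_option linter.unusedSectionVars false
noncomputable section
open scoped Manifold ContDiff Topology InnerProductSpace
open MeasureTheory Set Function Filter

namespace Crest.Agent.X212.Ipl9
open An Sob92 Cyf70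
open Neck67 (Lb)
open Bki64 (win)

theorem interp {y : ℕ → ℝ} {b : ℝ} (hb : 1 ≤ b) (h0 : ∀ k, 0 ≤ y k)
    (h : ∀ l > 0, ∀ k, 2 * y (k + 1) ≤ b * (l * y k + l⁻¹ * y (k + 2))) (k : ℕ) :
    y k ^ 2 ≤ (b ^ 2) ^ (k * k) * y 0 * y (2 * k) := by
  have : ∀ δ > 0, y k ^ 2 ≤ (b ^ 2) ^ (k * k) * (y 0 + δ) * (y (2 * k) + δ) := fun δ hδ => by
    have p : ∀ j, 0 < y j + δ := fun j => by have := h0 j; positivity
    refine le_trans (pow_le_pow_left₀ (h0 k) (by linarith) 2)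
      (Rdc90.logcvx (x := fun j => y j + δ) (by positivity) p (fun j => ?_) k)
    obtain ⟨u, u0, hu⟩ : ∃ u > 0, y j + δ = u * u := ⟨_, Real.sqrt_pos.2 (p j), (Real.mul_self_sqrt (p j).le).symm⟩
    obtain ⟨v, v0, hv⟩ : ∃ v > 0, y (j + 2) + δ = v * v :=
      ⟨_, Real.sqrt_pos.2 (p _), (Real.mul_self_sqrt (p _).le).symm⟩
    have h1 := h (v / u) (by positivity) j
    have h2 : 2 * δ ≤ b * (v / u * δ + (v / u)⁻¹ * δ) := by
      have : v / u * δ + (v / u)⁻¹ * δ = 2 * δ + (u - v) ^ 2 / (u * v) * δ := by field_simp; ring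
      have q : 0 ≤ (u - v) ^ 2 / (u * v) * δ := by positivity
      rw [this]; nlinarith
    have h3 : v / u * (y j + δ) + (v / u)⁻¹ * (y (j + 2) + δ) = 2 * (u * v) := by
      rw [hu, hv]; field_simp; ring
    have h4 : y (j + 1) + δ ≤ b * (u * v) := by nlinarith
    simp only [hu, hv]
    exact (pow_le_pow_left₀ (p _).le h4 2).trans_eq (by ring)
  have c : Continuous fun δ : ℝ => (b ^ 2) ^ (k * k) * (y 0 + δ) * (y (2 * k) + δ) := by fun_prop
  simpa using ge_of_tendsto ((c.tendsto 0).mono_left (nhdsWithin_le_nhds (s := Ioi 0)))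
    (eventually_mem_nhdsWithin.mono this)

section
variable {E : Type} [NormedAddCommGroup E] [NormedSpace ℝ E] [FiniteDimensional ℝ E]
  [MeasurableSpace E] [BorelSpace E]
  {HM : Type} [TopologicalSpace HM] {I : ModelWithCorners ℝ E HM}
  {M : Type} [TopologicalSpace M] [ChartedSpace HM M] [IsManifold I ∞ M]
  [MeasurableSpace M] [T2Space M] [BorelSpace M] [SecondCountableTopology M]
  {ι : Type} [Fintype ι] {V : Type} [NormedAddCommGroup V] [InnerProductSpace ℝ V]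
  (F : Fr I M ι) {C : ℝ}

theorem lcv0 (hC : ∀ a x, ‖F.dv a x‖ ≤ C) {l : ℝ} (hl : 0 < l) {u : M → V} (hu : Sm I u)
    (hc : HasCompactSupport u) (a : ι) :
    2 * N2 F.toPre 0 (F.D a u) ≤ l * N2 F.toPre 0 u + l⁻¹ * (2 * (1 + C ^ 2) * N2 F.toPre 1 (F.D a u)) := by
  have s1 := F.sm_D hu a
  have c1 := F.hcs_D hc a
  have i0 := int_sq (FL_of_hcs (F := F.toPre) 0 hu hc)
  have i1 := int_sq (FL_of_hcs (F := F.toPre) 0 s1 c1)
  have i2 := int_sq (FL_of_hcs (F := F.toPre) 0 (F.sm_D s1 a) (F.hcs_D c1 a))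
  have h1 : N2 F.toPre 0 (F.D a (F.D a u)) ≤ N2 F.toPre 1 (F.D a u) := n2_dv_le 0 _ a
  have h2 : N2 F.toPre 0 (F.D a u) ≤ N2 F.toPre 1 (F.D a u) := n2_le_succ 0 _
  have h3 : 2 * N2 F.toPre 0 (F.D a u) ≤ l * N2 F.toPre 0 u +
      l⁻¹ * (2 * N2 F.toPre 0 (F.D a (F.D a u)) + 2 * C ^ 2 * N2 F.toPre 0 (F.D a u)) := by
    conv_lhs => rw [← ip_eq, Pre.ip, Ell97.ibp_fun F a hu hc s1]
    simp only [n2, ← integral_const_mul]
    have i3 : Integrable (fun x => l⁻¹ * (2 * ‖F.D a (F.D a u) x‖ ^ 2 + 2 * C ^ 2 * ‖F.D a u x‖ ^ 2)) F.μ :=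
      ((i2.const_mul _).add (i1.const_mul _)).const_mul _
    rw [← integral_add (i2.const_mul _) (i1.const_mul _), ← integral_const_mul,
      ← integral_add (i0.const_mul _) i3]
    refine integral_mono ((F.integrable_inner hu.continuous hc ((F.sm_D s1 a).continuous.neg.sub
      ((F.dv_sm a).continuous.smul s1.continuous))).const_mul _)
      ((i0.const_mul _).add i3) fun x => ?_
    set w := -F.D a (F.D a u) x - F.dv a x • F.D a u x
    have e1 : ‖w‖ ≤ ‖F.D a (F.D a u) x‖ + C * ‖F.D a u x‖ := (norm_sub_le _ _).trans (by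
      rw [norm_neg, norm_smul]; gcongr; exact hC a x)
    have e2 : ‖w‖ ^ 2 ≤ 2 * ‖F.D a (F.D a u) x‖ ^ 2 + 2 * C ^ 2 * ‖F.D a u x‖ ^ 2 := by
      nlinarith [pow_le_pow_left₀ (norm_nonneg _) e1 2,
        sq_nonneg (‖F.D a (F.D a u) x‖ - C * ‖F.D a u x‖)]
    have e3 : 2 * (‖u x‖ * ‖w‖) ≤ l * ‖u x‖ ^ 2 + l⁻¹ * ‖w‖ ^ 2 := by
      have : l * ‖u x‖ ^ 2 + l⁻¹ * ‖w‖ ^ 2 = 2 * (‖u x‖ * ‖w‖) + l⁻¹ * (l * ‖u x‖ - ‖w‖) ^ 2 := by
        field_simp; ring
      rw [this]; exact le_add_of_nonneg_right (by positivity)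
    have e4 := real_inner_le_norm (u x) w
    have e5 := mul_le_mul_of_nonneg_left e2 (inv_pos.2 hl).le
    beta_reduce
    linarith
  refine h3.trans (add_le_add le_rfl (mul_le_mul_of_nonneg_left ?_ (inv_pos.2 hl).le))
  nlinarith [mul_le_mul_of_nonneg_left h2 (sq_nonneg C)]

theorem lcv (hC : ∀ a x, ‖F.dv a x‖ ≤ C) {l : ℝ} (hl : 0 < l) (k : ℕ) : ∀ {u : M → V}, Sm I u →
    HasCompactSupport u → 2 * N2 F.toPre (k + 1) u ≤ (Fintype.card ι + 1 + 2 * (1 + C ^ 2)) *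
      (l * N2 F.toPre k u + l⁻¹ * N2 F.toPre (k + 2) u) := by
  have l0 := inv_pos.2 hl
  have am : ∀ {y : ℝ}, 0 ≤ y → 2 * y ≤ l * y + l⁻¹ * y := fun {y} hy => by
    have : l * y + l⁻¹ * y = 2 * y + l⁻¹ * (l - 1) ^ 2 * y := by field_simp; ring
    rw [this]; exact le_add_of_nonneg_right (by positivity)
  have n0 : (0 : ℝ) ≤ Fintype.card ι := Nat.cast_nonneg _
  induction k with
  | zero =>
    intro u hu hc
    have h1 := Finset.sum_le_sum fun a (_ : a ∈ Finset.univ) => lcv0 F hC hl hu hc a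
    have p0 : 0 ≤ N2 F.toPre 0 u := n2_nonneg 0 u
    have p1 : 0 ≤ ∑ a, N2 F.toPre 1 (F.D a u) := Finset.sum_nonneg fun a _ => n2_nonneg 1 _
    simp only [Finset.sum_add_distrib, ← Finset.mul_sum, Finset.sum_const, Finset.card_univ,
      nsmul_eq_mul] at h1
    have := am p0
    show 2 * (N2 F.toPre 0 u + ∑ a, N2 F.toPre 0 (F.D a u)) ≤
      _ * (_ + _ * (N2 F.toPre 0 u + ∑ a, N2 F.toPre 1 (F.D a u)))
    nlinarith [mul_nonneg l0.le p0, mul_nonneg hl.le p0, mul_nonneg l0.le p1, sq_nonneg C,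
      mul_nonneg n0 (mul_nonneg l0.le p0), mul_nonneg n0 (mul_nonneg l0.le p1),
      mul_nonneg (sq_nonneg C) (mul_nonneg l0.le p0), mul_nonneg (sq_nonneg C) (mul_nonneg hl.le p0)]
  | succ k ih =>
    intro u hu hc
    have h1 := Finset.sum_le_sum fun a (_ : a ∈ Finset.univ) => ih (F.sm_D hu a) (F.hcs_D hc a)
    have p0 : 0 ≤ N2 F.toPre 0 u := n2_nonneg 0 u
    simp only [Finset.sum_add_distrib, ← Finset.mul_sum] at h1
    have := am p0
    show 2 * (N2 F.toPre 0 u + ∑ a, N2 F.toPre (k + 1) (F.D a u)) ≤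
      _ * (_ * (N2 F.toPre 0 u + ∑ a, N2 F.toPre k (F.D a u)) +
        _ * (N2 F.toPre 0 u + ∑ a, N2 F.toPre (k + 2) (F.D a u)))
    nlinarith [mul_nonneg (add_nonneg n0 (by positivity : (0 : ℝ) ≤ 2 * (1 + C ^ 2)))
      (add_nonneg (mul_nonneg l0.le p0) (mul_nonneg hl.le p0))]

/-- interpolation between `L²` and `L²_{2k}` -/
theorem N2_sq_le (hC : ∀ a x, ‖F.dv a x‖ ≤ C) (k : ℕ) {u : M → V} (hu : Sm I u)
    (hc : HasCompactSupport u) : N2 F.toPre k u ^ 2 ≤ ((Fintype.card ι + 1 + 2 * (1 + C ^ 2)) ^ 2) ^ (k * k) *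
      N2 F.toPre 0 u * N2 F.toPre (2 * k) u :=
  interp (y := fun k => N2 F.toPre k u) (by have := Nat.cast_nonneg (α := ℝ) (Fintype.card ι); nlinarith)
    (fun k => n2_nonneg k u) (fun _ hl k => lcv F hC hl k hu hc) k

/-- the local form -/
theorem loc {T : ℕ → ℝ} (hT : F.Tame T) (j : ℕ) {m : ℝ} (m0 : 0 ≤ m) : ∃ K, 0 ≤ K ∧
    ∀ (S : Set M) (χ : M → ℝ) (f : M → V) (ε b : ℝ), 0 ≤ ε → 0 ≤ b → Sm I χ → HasCompactSupport χ →
      tsupport χ ⊆ S → Lb F.toPre S (2 * (j + 4)) f b → N2 F.toPre (2 * (j + 4)) χ ≤ m →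
      (Sm I (fun x => χ x • f x) → N2 F.toPre 0 (fun x => χ x • f x) ≤ ε ^ 2) →
      Lb F.toPre univ j (fun x => χ x • f x) (K * √(ε * b)) := by
  obtain ⟨B, B0, hB⟩ : ∃ B, 0 ≤ B ∧ ∀ u : M → V, Sm I u → HasCompactSupport u →
      N2 F.toPre (j + 4) u ^ 2 ≤ B * N2 F.toPre 0 u * N2 F.toPre (2 * (j + 4)) u :=
    ⟨_, by positivity, fun u => N2_sq_le F (fun a => CB_bound ((hT.dv a).2 0)) (j + 4)⟩
  have c0 := Neck67.one_le_cL (Fintype.card ι) (2 * (j + 4))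
  generalize hc : Neck67.cL (Fintype.card ι) (2 * (j + 4)) = c at c0
  refine ⟨√|T 0| * √(√(B * m) * c), by positivity, fun S χ f ε b hε hb sχ cχ ts h1 e1 e3 => ?_⟩
  let L : V →L[ℝ] ℝ →L[ℝ] V := (ContinuousLinearMap.lsmul ℝ ℝ).flip
  have hL : ‖L‖ ≤ 1 := by
    rw [ContinuousLinearMap.opNorm_flip]; exact ContinuousLinearMap.opNorm_lsmul_le
  have su : Sm I fun x => χ x • f x := Neck67.sm_bil_on L (fun x hx => h1.sm hx) sχ ts
  have cu : HasCompactSupport fun x => χ x • f x := hcs_bil_right L f cχ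
  have e2 : F.nrm _ (fun x => χ x • f x) ^ 2 ≤ _ :=
    pow_le_pow_left₀ (nrm_nonneg _ _) (Neck67.nrm_mul_on' le_rfl hL h1 sχ cχ ts) 2
  rw [mul_pow, nrm_sq, nrm_sq, abs_of_nonneg hb, hc] at e2
  have e5 : N2 F.toPre (j + 4) (fun x => χ x • f x) ≤ √(B * m) * c * (ε * b) := by
    refine (abs_le_of_sq_le_sq' ((hB _ su cu).trans ?_) (by positivity)).2
    calc _ ≤ B * ε ^ 2 * ((c * b) ^ 2 * m) := mul_le_mul (mul_le_mul_of_nonneg_left (e3 su) B0)
          (e2.trans (by gcongr)) (n2_nonneg _ _) (by positivity)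
      _ = _ := by rw [mul_pow, mul_pow, mul_pow, Real.sq_sqrt (by positivity)]; ring
  refine (Lb.of_CB su ((Sup.of_tame hT).CB j su cu)).mono ?_
  rw [mul_assoc, ← Real.sqrt_mul (by positivity), nrm_eq]
  gcongr

end

variable {E3 : Type} [NormedAddCommGroup E3] [NormedSpace ℝ E3] [FiniteDimensional ℝ E3]
  [MeasurableSpace E3] [BorelSpace E3]
  {H3 : Type} [TopologicalSpace H3] {I3 : ModelWithCorners ℝ E3 H3} [I3.Boundaryless]
  {Y : Type} [TopologicalSpace Y] [ChartedSpace H3 Y] [IsManifold I3 ∞ Y] [T2Space Y]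
  [MeasurableSpace Y] [BorelSpace Y] [SecondCountableTopology Y] [CompactSpace Y]
  {κ : Type} [Fintype κ]

theorem l2_le (F : Fr I3 Y κ) {V : Type} [NormedAddCommGroup V] [InnerProductSpace ℝ V]
    {u f : Y × ℝ → V} {p q e : ℝ} (hpq : p ≤ q) (hu : Continuous u)
    (h0 : ∀ y, ∀ t ∉ Icc p q, u (y, t) = 0) (h1 : ∀ x, ‖u x‖ ≤ ‖f x‖)
    (hf : ∀ t ∈ Icc p q, (Continuous fun y => f (y, t)) ∧ ∫ y, ‖f (y, t)‖ ^ 2 ∂F.μ ≤ e) :
    N2 (cyl F).toPre 0 u ≤ (q - p) * e := by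
  have cs : HasCompactSupport fun x => ‖u x‖ ^ 2 :=
    .intro (isCompact_univ.prod (isCompact_Icc (a := p) (b := q))) fun x hx => by
      rw [h0 x.1 x.2 fun h => hx ⟨trivial, h⟩]; simp
  refine (integral_cyl (F := F.toPre) (hu.norm.pow 2) cs).trans_le ?_
  refine (integral_mono_of_nonneg (g := (Icc p q).indicator fun _ => e)
    (Eventually.of_forall fun t => integral_nonneg fun _ => sq_nonneg _)
    ((integrable_indicator_iff measurableSet_Icc).2 (integrableOn_const (by simp)))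
    (Eventually.of_forall fun t => ?_)).trans_eq ?_
  · by_cases ht : t ∈ Icc p q
    · rw [indicator_of_mem ht]
      exact (integral_mono_of_nonneg (Eventually.of_forall fun _ => sq_nonneg _)
        (((hf t ht).1.norm.pow 2).integrable_of_hasCompactSupport (.of_compactSpace _))
        (Eventually.of_forall fun y => pow_le_pow_left₀ (norm_nonneg _) (h1 _) 2)).trans (hf t ht).2
    · simp [indicator_of_notMem ht, h0 _ t ht]
  · rw [integral_indicator measurableSet_Icc, setIntegral_const, Real.volume_real_Icc_of_le hpq,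
      smul_eq_mul]

theorem N2_le (F : Fr I3 Y κ) {χ : Y × ℝ → ℝ} {p q A : ℝ} {k : ℕ} (hpq : p ≤ q) (h : Sm (IC I3) χ)
    (hA : (cyl F).CB k χ A) (ts : tsupport χ ⊆ univ ×ˢ Icc p q) : N2 (cyl F).toPre k χ ≤
      (Fintype.card (Option κ) + 1) ^ k * A ^ 2 * (F.μ.real univ * (q - p)) := by
  have : IsFiniteMeasure ((cyl F).μ.restrict (univ ×ˢ Icc p q)) :=
    ⟨by simpa using (isCompact_univ.prod isCompact_Icc).measure_lt_top⟩
  rw [← NS_of_tsupport _ ts]
  refine (Rsp69.n2_le_CB _ h hA).trans_eq ?_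
  rw [measureReal_restrict_apply_univ, ← Real.volume_real_Icc_of_le hpq, ← measureReal_prod_prod]
  rfl

theorem ipl : Rdc90.IplStmt I3 Y κ := fun F hn V _ _ _ j => by
  obtain ⟨T, hT⟩ := Cht98.tame_cyl F hn
  let φ : ContDiffBump (0 : ℝ) := ⟨1, 3 / 2, by norm_num, by norm_num⟩
  have φ1 : ∀ t, ‖φ t‖ ≤ 1 := fun t => by rw [Real.norm_of_nonneg φ.nonneg]; exact φ.le_one
  obtain ⟨A, hA⟩ := Cht98.CBs_shift F.toPre φ.contDiff φ.hasCompactSupport.deriv φ1
  obtain ⟨K, K0, hK⟩ := loc (V := V) (cyl F) hT j (m := (Fintype.card (Option κ) + 1) ^ (2 * (j + 4)) *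
    A (2 * (j + 4)) ^ 2 * (F.μ.real univ * 3)) (by positivity)
  refine ⟨2 * (j + 4), K * √2, by positivity, fun f s ε b hε hb h1 h2 => ?_⟩
  have z : ∀ t ∉ Icc (s - 3 / 2) (s + 3 / 2), φ (t + -s) = 0 := fun t ht => φ.zero_of_le_dist (by
    rw [mem_Icc, not_and_or, not_le, not_le] at ht
    rw [dist_zero_right, Real.norm_eq_abs, le_abs]
    rcases ht with ht | ht <;> [right; left] <;> simp only [φ] <;> linarith)
  have ts : tsupport (fun x : Y × ℝ => φ (x.2 + -s)) ⊆ univ ×ˢ Icc (s - 3 / 2) (s + 3 / 2) :=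
    closure_minimal (fun x hx => ⟨trivial, by_contra fun h => hx (z _ h)⟩) (isClosed_univ.prod isClosed_Icc)
  have sub : Icc (s - 3 / 2) (s + 3 / 2) ⊆ Ioo (s - 2) (s + 2) := Icc_subset_Ioo (by linarith) (by linarith)
  have le : s - 3 / 2 ≤ s + 3 / 2 := by linarith
  refine ((hK (win Y s 2) _ f (2 * ε) b (by positivity) hb (hA (-s)).1
    ((isCompact_univ.prod isCompact_Icc).of_isClosed_subset (isClosed_tsupport _) ts)
    (ts.trans (prod_mono Subset.rfl sub)) h1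
    ((N2_le F le (hA (-s)).1 ((hA (-s)).2 _) ts).trans_eq (by congr 2; ring)) fun su =>
      (l2_le F (f := f) (e := ε ^ 2) le su.continuous (fun y t ht => by simp [z t ht]) (fun x => ?_)
        fun t ht => ⟨continuous_iff_continuousAt.2 fun y => ContinuousAt.comp (f := fun y => (y, t))
          (h1.sm (x := (y, t)) ⟨trivial, sub ht⟩).continuousAt (by fun_prop), h2 t (sub ht)⟩).trans
        (by nlinarith [sq_nonneg ε])).mono' (subset_univ _) (le_of_eq ?_)).congr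
    (Bki64.win_op _ _) fun x hx => ?_
  · rw [norm_smul]
    exact mul_le_of_le_one_left (norm_nonneg _) (φ1 _)
  · rw [mul_assoc 2, Real.sqrt_mul (by norm_num), mul_assoc]
  · rw [φ.one_of_mem_closedBall, one_smul]
    rw [mem_closedBall_zero_iff, Real.norm_eq_abs, abs_le]
    constructor <;> simp only [φ] <;> linarith [hx.2.1, hx.2.2]

end Crest.Agent.X212.Ipl9
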